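import Vale.Agent.P366.H222.X0c

/-! Geometry of the rays, part 4: the induced metric, the region. -/

open MeasureTheory Metric Filter Topology Set
open scoped ContDiff ENNReal

noncomputable section
namespace Vale.Agent.P366.KS

open Vale.Agent.P366 (pd E)
open Vale.Agent.P366.H353

variable {C : Cone} {lam f : E 3 → ℝ} {V : E 4 → ℝ} {D : Stmt.Exterior 3} {x y z : E 3} {s t : ℝ}

@[simp] theorem sp_pt (t : ℝ) (y : E 3) : sp (pt t y) = y := rfl

@[simp] theorem pt_zero (t : ℝ) (y : E 3) : pt t y 0 = t := rfl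

@[simp] theorem pt_succ (t : ℝ) (y : E 3) (i : Fin 3) : pt t y i.succ = y i := rfl

theorem nul_pt (lam : E 3 → ℝ) (t : ℝ) (y : E 3) : nul lam (pt t y) = t + lam y := rfl

/-- the projection to space is linear and continuous -/
def spL : E 4 →L[ℝ] E 3 :=
  LinearMap.toContinuousLinearMap
    { toFun := sp
      map_add' := fun p q => by ext i; rfl
      map_smul' := fun c p => by ext i; rfl }

theorem spL_apply (p : E 4) : spL p = sp p := rfl

theorem sp_hasFDerivAt (p : E 4) : HasFDerivAt sp spL p := spL.hasFDerivAt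

theorem sp_contDiff : ContDiff ℝ ∞ sp := spL.contDiff

theorem sp_single_succ (i : Fin 3) : sp (EuclideanSpace.single i.succ (1 : ℝ)) =
    EuclideanSpace.single i 1 := by
  ext j
  simp [sp, Pi.single_apply]

theorem sp_single_zero : sp (EuclideanSpace.single (0 : Fin 4) (1 : ℝ)) = 0 := by
  ext j
  simp [sp, Pi.single_apply]

theorem nul_contDiffAt {p : E 4} (hl : ContDiffAt ℝ ∞ lam (sp p)) : ContDiffAt ℝ ∞ (nul lam) p := by
  have h1 : ContDiffAt ℝ ∞ (fun p : E 4 => p 0) p :=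
    (contDiff_piLp_apply (p := 2) (i := (0 : Fin 4))).contDiffAt
  exact h1.add (hl.comp p sp_contDiff.contDiffAt)

theorem nul_diff {p : E 4} (hl : DifferentiableAt ℝ lam (sp p)) :
    DifferentiableAt ℝ (nul lam) p :=
  ((EuclideanSpace.proj 0 : E 4 →L[ℝ] ℝ).differentiableAt).add
    (hl.comp p (sp_hasFDerivAt p).differentiableAt)

theorem pd_nul_zero {p : E 4} (hl : DifferentiableAt ℝ lam (sp p)) : pd 0 (nul lam) p = 1 := by
  have h1 : HasFDerivAt (fun p : E 4 => p 0) (EuclideanSpace.proj 0 : E 4 →L[ℝ] ℝ) p :=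
    (EuclideanSpace.proj 0 : E 4 →L[ℝ] ℝ).hasFDerivAt
  have h2 : HasFDerivAt (fun p : E 4 => lam (sp p)) ((fderiv ℝ lam (sp p)).comp spL) p :=
    hl.hasFDerivAt.comp p (sp_hasFDerivAt p)
  have h3 : HasFDerivAt (nul lam) _ p := h1.add h2
  unfold Vale.Agent.P366.pd
  rw [h3.fderiv]
  have h4 : fderiv ℝ lam (sp p) (spL (EuclideanSpace.single (0 : Fin 4) (1 : ℝ))) = 0 := by
    rw [spL_apply, sp_single_zero, map_zero]
  show (EuclideanSpace.single (0 : Fin 4) (1 : ℝ) : E 4) 0 +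
    fderiv ℝ lam (sp p) (spL (EuclideanSpace.single (0 : Fin 4) (1 : ℝ))) = 1
  rw [h4]
  simp

theorem pd_nul_succ {p : E 4} (hl : DifferentiableAt ℝ lam (sp p)) (i : Fin 3) :
    pd i.succ (nul lam) p = pd i lam (sp p) := by
  have h1 : HasFDerivAt (fun p : E 4 => p 0) (EuclideanSpace.proj 0 : E 4 →L[ℝ] ℝ) p :=
    (EuclideanSpace.proj 0 : E 4 →L[ℝ] ℝ).hasFDerivAt
  have h2 : HasFDerivAt (fun p : E 4 => lam (sp p)) ((fderiv ℝ lam (sp p)).comp spL) p :=
    hl.hasFDerivAt.comp p (sp_hasFDerivAt p)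
  have h3 : HasFDerivAt (nul lam) _ p := h1.add h2
  unfold Vale.Agent.P366.pd
  rw [h3.fderiv]
  have h4 : fderiv ℝ lam (sp p) (spL (EuclideanSpace.single i.succ (1 : ℝ))) =
      fderiv ℝ lam (sp p) (EuclideanSpace.single i 1) := by
    rw [spL_apply, sp_single_succ]
  show (EuclideanSpace.single i.succ (1 : ℝ) : E 4) 0 +
    fderiv ℝ lam (sp p) (spL (EuclideanSpace.single i.succ (1 : ℝ))) = _
  rw [h4]
  simp [Ne.symm (Fin.succ_ne_zero i)]

/-- the Kerr-Schild metric, blocks -/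
theorem ksG_zero_zero {p : E 4} (hl : DifferentiableAt ℝ lam (sp p)) :
    ksG lam V p 0 0 = -1 + V p := by
  have hn := nul_diff hl
  unfold ksG
  rw [Vale.Agent.P366.Bridge.pd_eq hn, pd_nul_zero hl]
  simp

theorem ksG_zero_succ {p : E 4} (hl : DifferentiableAt ℝ lam (sp p)) (i : Fin 3) :
    ksG lam V p 0 i.succ = V p * pd i lam (sp p) := by
  have hn := nul_diff hl
  unfold ksG
  rw [Vale.Agent.P366.Bridge.pd_eq hn, Vale.Agent.P366.Bridge.pd_eq hn, pd_nul_zero hl,
    pd_nul_succ hl]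
  simp [Ne.symm (Fin.succ_ne_zero i)]

theorem ksG_succ_zero {p : E 4} (hl : DifferentiableAt ℝ lam (sp p)) (i : Fin 3) :
    ksG lam V p i.succ 0 = V p * pd i lam (sp p) := by
  have hn := nul_diff hl
  unfold ksG
  rw [Vale.Agent.P366.Bridge.pd_eq hn, Vale.Agent.P366.Bridge.pd_eq hn, pd_nul_zero hl,
    pd_nul_succ hl]
  simp

theorem ksG_succ_succ {p : E 4} (hl : DifferentiableAt ℝ lam (sp p)) (i j : Fin 3) :
    ksG lam V p i.succ j.succ = kd i j + V p * pd i lam (sp p) * pd j lam (sp p) := by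
  have hn := nul_diff hl
  unfold ksG
  rw [Vale.Agent.P366.Bridge.pd_eq hn, Vale.Agent.P366.Bridge.pd_eq hn,
    pd_nul_succ hl, pd_nul_succ hl]
  simp [kd, Fin.succ_inj]

/-- the induced metric `δ - df df + V dF dF`, `F = f + λ` -/
theorem indG_eq (hl : DifferentiableAt ℝ lam y) (hf : DifferentiableAt ℝ f y) (i j : Fin 3) :
    indG (ksG lam V) f y i j = kd i j - pd i f y * pd j f y +
      V (pt (f y) y) * (pd i f y + pd i lam y) * (pd j f y + pd j lam y) := by
  have hl' : DifferentiableAt ℝ lam (sp (pt (f y) y)) := hl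
  unfold indG tng
  rw [Fin.sum_univ_succ]
  simp only [Fin.sum_univ_succ (n := 3), Fin.cons_zero, Fin.cons_succ]
  simp only [ksG_zero_zero hl', ksG_zero_succ hl', ksG_succ_zero hl', ksG_succ_succ hl',
    Vale.Agent.P366.Bridge.pd_eq hf, sp_pt]
  have e1 : ∀ (g : Fin 3 → ℝ), ∑ k, g k * (Pi.single j (1 : ℝ) : Fin 3 → ℝ) k = g j := by
    intro g
    simp [Pi.single_apply]
  have e2 : ∀ (g : Fin 3 → ℝ), ∑ k, g k * (Pi.single i (1 : ℝ) : Fin 3 → ℝ) k = g i := by
    intro g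
    simp [Pi.single_apply]
  have e3 : ∀ k : Fin 3, (∑ l, (kd k l + V (pt (f y) y) * pd k lam y * pd l lam y) *
      (Pi.single i (1 : ℝ) : Fin 3 → ℝ) k * (Pi.single j (1 : ℝ) : Fin 3 → ℝ) l) =
      (kd k j + V (pt (f y) y) * pd k lam y * pd j lam y) *
        (Pi.single i (1 : ℝ) : Fin 3 → ℝ) k := by
    intro k
    rw [e1]
  simp only [e1, Finset.sum_add_distrib, e3]
  simp only [← Finset.sum_mul, e2, mul_right_comm _ _ (pd j f y)]
  ring

/-- the determinant of the induced metric (algebra) -/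
theorem det_alg {l g : Fin 3 → ℝ} {v : ℝ} (hl : ∑ i, l i ^ 2 = 1) :
    Matrix.det (Matrix.of fun i j => kd i j - g i * g j + v * (g i + l i) * (g j + l j)) =
      1 - ∑ i, g i ^ 2 + v * (1 + ∑ i, l i * g i) ^ 2 := by
  rw [Matrix.det_fin_three]
  simp only [Matrix.of_apply, Fin.sum_univ_three] at *
  simp only [kd, show (0 : Fin 3) = 1 ↔ False by decide, show (0 : Fin 3) = 2 ↔ False by decide,
    show (1 : Fin 3) = 0 ↔ False by decide, show (1 : Fin 3) = 2 ↔ False by decide,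
    show (2 : Fin 3) = 0 ↔ False by decide, show (2 : Fin 3) = 1 ↔ False by decide,
    if_true, if_false]
  linear_combination v * (1 - (g 0 ^ 2 + g 1 ^ 2 + g 2 ^ 2)) * hl

theorem lam_diff (hS : IsSlice C lam V f D) (hy : 0 ≤ D.F y) : DifferentiableAt ℝ lam y :=
  (hS.smL y hy).differentiableAt (by simp)

theorem f_diff (hS : IsSlice C lam V f D) (hy : 0 ≤ D.F y) : DifferentiableAt ℝ f y :=
  (hS.smf y hy).differentiableAt (by simp)

theorem det_indG_pos (hS : IsSlice C lam V f D) (hy : 0 ≤ D.F y) :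
    0 < 1 - ∑ i, pd i f y ^ 2 + V (pt (f y) y) * (1 + dL lam f y) ^ 2 := by
  have h1 := (D.pos y hy).det_pos
  have h2 : Stmt.mat D.g y = Matrix.of fun i j => kd i j - pd i f y * pd j f y +
      V (pt (f y) y) * (pd i f y + pd i lam y) * (pd j f y + pd j lam y) := by
    ext i j
    rw [Matrix.of_apply, ← indG_eq (lam_diff hS hy) (f_diff hS hy), ← hS.met y hy i j]
    rfl
  rw [h2, det_alg (gsq_lam' hS hy)] at h1
  exact h1

/-- the slice is never tangent to the null direction -/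
theorem dL_ne (hS : IsSlice C lam V f D) (hy : 0 ≤ D.F y) : 1 + dL lam f y ≠ 0 := by
  intro h
  have h1 := det_indG_pos hS hy
  rw [h] at h1
  have h2 := gsq_lam' hS hy
  have h3 : dL lam f y = -1 := by linarith
  unfold dL at h3
  have h4 := Finset.sum_mul_sq_le_sq_mul_sq Finset.univ (fun i => pd i lam y) (fun i => pd i f y)
  rw [h3, h2] at h4
  nlinarith

theorem dL_Y (hS : IsSlice C lam V f D) (hx : ‖x‖ = 1) (hs : C.U x ≤ s) :
    dL lam f (Y C.H x s) = ∑ i, x i * pd i f (Y C.H x s) := by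
  unfold dL
  simp only [pd_lam_Y hS hx hs]

theorem norm_Y_ge (H : E 3 → ℝ) (hx : ‖x‖ = 1) (s : ℝ) : s - ‖Y H x 0‖ ≤ ‖Y H x s‖ := by
  have h1 : Y H x s = Y H x 0 + s • x := by
    ext i
    simp [Y_apply]
  have h2 : s ≤ ‖s • x‖ := by
    rw [norm_smul, hx, mul_one]
    exact le_abs_self s
  have h3 : ‖s • x‖ ≤ ‖Y H x s‖ + ‖Y H x 0‖ := by
    have : s • x = Y H x s - Y H x 0 := by rw [h1]; simp
    rw [this]
    exact norm_sub_le _ _
  linarith

/-- far out the slice is `t = 0` -/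
theorem f_zero_far (hS : IsSlice C lam V f D) (x : E 3) (hx : ‖x‖ = 1) :
    ∃ S, ∀ s, S ≤ s → f =ᶠ[𝓝 (Y C.H x s)] fun _ => 0 := by
  obtain ⟨R, hR⟩ := hS.cpt
  refine ⟨R + ‖Y C.H x 0‖ + 1, fun s hs => ?_⟩
  have h1 : R < ‖Y C.H x s‖ := by
    have := norm_Y_ge C.H hx s
    linarith
  have h2 : ∀ᶠ z in 𝓝 (Y C.H x s), R < ‖z‖ :=
    continuous_norm.continuousAt.eventually (lt_mem_nhds h1)
  filter_upwards [h2] with z hz
  exact hR z hz

theorem dL_Y_contOn (hS : IsSlice C lam V f D) (hx : ‖x‖ = 1) :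
    ContinuousOn (fun s => 1 + dL lam f (Y C.H x s)) (Ici (C.U x)) := by
  intro s hs
  have hs' : C.U x ≤ s := hs
  have hmem := mem_Y hS hx hs'
  refine ContinuousAt.continuousWithinAt ?_
  refine continuousAt_const.add ?_
  unfold dL
  refine tendsto_finsetSum _ fun i _ => ?_
  exact (ContinuousAt.comp (f := Y C.H x) (pd_contAt (hS.smL _ hmem) i)
    (Y_cont C.H x).continuousAt).mul
    (ContinuousAt.comp (f := Y C.H x) (pd_contAt (hS.smf _ hmem) i) (Y_cont C.H x).continuousAt)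

theorem dL_pos (hS : IsSlice C lam V f D) (hy : 0 ≤ D.F y) : 0 < 1 + dL lam f y := by
  obtain ⟨x, s, hx, hs, rfl⟩ := (mem_iff hS).1 hy
  by_contra hneg
  have hneg' : 1 + dL lam f (Y C.H x s) < 0 :=
    lt_of_le_of_ne (not_lt.1 hneg) (dL_ne hS hy)
  obtain ⟨S, hfar⟩ := f_zero_far hS x hx
  set T := max S s
  have hT : C.U x ≤ T := hs.trans (le_max_right _ _)
  have h1 : 1 + dL lam f (Y C.H x T) = 1 := by
    have : dL lam f (Y C.H x T) = 0 := by
      unfold dL
      refine Finset.sum_eq_zero fun i _ => ?_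
      rw [Vale.Agent.P366.pd_congr (hfar T (le_max_left _ _)) i, Vale.Agent.P366.pd_const, mul_zero]
    rw [this, add_zero]
  have hc : ContinuousOn (fun s => 1 + dL lam f (Y C.H x s)) (Icc s T) :=
    (dL_Y_contOn hS hx).mono fun r hr => hs.trans hr.1
  have hmem : (0 : ℝ) ∈ Icc (1 + dL lam f (Y C.H x s)) (1 + dL lam f (Y C.H x T)) :=
    ⟨hneg'.le, by rw [h1]; norm_num⟩
  obtain ⟨r, hr, hr0⟩ := intermediate_value_Icc (le_max_right S s) hc hmem
  exact dL_ne hS (mem_Y hS hx (hs.trans hr.1)) hr0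

theorem f_Y_hasDerivAt (hS : IsSlice C lam V f D) (hx : ‖x‖ = 1) (hs : C.U x ≤ s) :
    HasDerivAt (fun s => f (Y C.H x s) + s) (dL lam f (Y C.H x s) + 1) s := by
  have h1 : HasDerivAt (Y C.H x) x s := by
    have h2 : Y C.H x = fun s => Y C.H x 0 + s • x := by
      funext s
      ext i
      simp [Y_apply]
    rw [h2]
    simpa using ((hasDerivAt_id s).smul_const x).const_add (Y C.H x 0)
  have h3 := (f_diff hS (mem_Y hS hx hs)).hasFDerivAt.comp_hasDerivAt s h1
  have h4 : fderiv ℝ f (Y C.H x s) x = dL lam f (Y C.H x s) := by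
    rw [Vale.Agent.P366.fderiv_eq_sum_pd, dL_Y hS hx hs]
  rw [h4] at h3
  exact h3.add (hasDerivAt_id s)

theorem f_bdr (hS : IsSlice C lam V f D) (hx : ‖x‖ = 1) :
    f (Y C.H x (C.U x)) = - C.U x ∧ D.F (Y C.H x (C.U x)) = 0 := by
  have h0 := posU' C hx
  have hx0 := ne_zero_of_one hx
  have h1 := hS.bdr (C.U x • x) (smul_ne_zero h0.ne' hx0)
    (by rw [U_smul C hx0 h0, norm_smul_unit hx h0.le])
  rw [Y_eq C hx h0, U_smul C hx0 h0] at h1
  exact ⟨h1.2, h1.1⟩

theorem f_add_nonneg (hS : IsSlice C lam V f D) (hx : ‖x‖ = 1) (hs : C.U x ≤ s) :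
    0 ≤ f (Y C.H x s) + s := by
  have hmono : MonotoneOn (fun s => f (Y C.H x s) + s) (Ici (C.U x)) := by
    refine monotoneOn_of_deriv_nonneg (convex_Ici _) ?_ ?_ ?_
    · intro r hr
      exact (f_Y_hasDerivAt hS hx hr).continuousAt.continuousWithinAt
    · intro r hr
      rw [interior_Ici] at hr
      exact (f_Y_hasDerivAt hS hx (le_of_lt hr)).differentiableAt.differentiableWithinAt
    · intro r hr
      rw [interior_Ici] at hr
      rw [(f_Y_hasDerivAt hS hx (le_of_lt hr)).deriv]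
      have := dL_pos hS (mem_Y hS hx (le_of_lt hr))
      linarith
  have h := hmono (mem_Ici.2 le_rfl) hs hs
  simp only at h
  rw [(f_bdr hS hx).1] at h
  linarith

/-- the hypersurface is part of the region -/
theorem mem_region (hS : IsSlice C lam V f D) (hy : 0 ≤ D.F y) :
    pt (f y) y ∈ Region lam f D := by
  obtain ⟨x, s, hx, hs, rfl⟩ := (mem_iff hS).1 hy
  refine ⟨hy, ?_, le_refl _⟩
  rw [nul_pt, lam_Y hS hx hs]
  exact f_add_nonneg hS hx hs

/-- null hypersurface and everything between: `(t, Y x s)` with `- s ≤ t ≤ f` -/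
theorem mem_region' (hS : IsSlice C lam V f D) (hx : ‖x‖ = 1) (hs : C.U x ≤ s)
    (ht : - s ≤ t) (ht' : t ≤ f (Y C.H x s)) : pt t (Y C.H x s) ∈ Region lam f D := by
  refine ⟨mem_Y hS hx hs, ?_, ht'⟩
  rw [nul_pt, lam_Y hS hx hs]
  linarith

end Vale.Agent.P366.KS
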