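import Vale.Agent.P366.Kerr.Three
import Vale.Agent.P366.H375.X2g
import Vale.Agent.P366.H208.X3
import Vale.Agent.P366.H296.X4
import Vale.Agent.P366.H375.X5
import Vale.Agent.P366.H296.X5m
import Vale.Agent.P366.H296.X8b
import Vale.Agent.P366.H707.X6b

/-! Kerr-Schild exteriors, `n = 3`: the Penrose inequality. -/

open MeasureTheory Metric Filter Topology Set
open scoped ContDiff ENNReal

noncomputable section
namespace Vale.Agent.P366.Kerr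

open Vale.Agent.P366.KS in
theorem final3 (C : NullCone 3) {lam f : Stmt.E 3 → ℝ} {V : Stmt.E 4 → ℝ} {D : Stmt.Exterior 3}
    (hS : IsSlice C lam V f D)
    (hV : ∀ p ∈ Region lam f D, ContDiffAt ℝ ∞ V p ∧ DECat (ksG lam V) (nul lam) p)
    (hAF : D.IsAF) (hT : D.Trapped) {m : ℝ} {P : Fin 3 → ℝ} (hm : D.IsEnergy m)
    (hP : D.IsMomentum P) :
    D.Amin ≠ ⊤ ∧ P = 0 ∧ 0 < m ∧
      (D.Amin.toReal / Stmt.omega 3) ^ (((3 : ℝ) - 2) / ((3 : ℝ) - 1)) / 2 ≤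
        √(m ^ 2 - ∑ i, P i ^ 2) := by
  have hS' := hS.toKS
  have hV' : ∀ p ∈ KS.Region lam f D, ContDiffAt ℝ ∞ V p ∧
      KS.DECat (KS.ksG lam V) (KS.nul lam) p := hV
  have hV1 : ∀ p ∈ KS.Region lam f D, ContDiffAt ℝ ∞ V p := fun p hp => (hV p hp).1
  have h5 := KS.energy_lim hS' hV1 hAF hm
  have hP0 : P = 0 := H296.KSx.momentum_zero_of hS' hV' hAF h5
    fun i => KS.momentum_lim hS' hV1 hAF hP i
  have hPhi := KS.chain hS' hV1 (fun x hx => KS.trapped_thl hS' hV1 hT hx) (KS.int_thl hS')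
    (fun x hx s s' h1 h2 => KS.mono_s hS' hV' hx h1 h2) (KS.mono_v hS' hV') h5
  obtain ⟨h1, h2, h3⟩ := KS.final_of (KS.area_le hS' hV1) hPhi
  refine ⟨h1, hP0, h2, ?_⟩
  have e1 : √(m ^ 2 - ∑ i, P i ^ 2) = m := by
    rw [hP0]
    simp [Real.sqrt_sq h2.le]
  have e2 : ((3 : ℝ) - 2) / ((3 : ℝ) - 1) = 1 / 2 := by norm_num
  rw [e1, e2, ← Real.sqrt_eq_rpow]
  exact h3

end Vale.Agent.P366.Kerr
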