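import Vale.Agent.P366.H353.Defs

/-! Exterior initial data in Kerr-Schild spacetimes over a null hypersurface of Minkowski space,
`n = 3`: definitions.

Points of spacetime are the points `p : E 4`; `p 0 = t` is the time, the other three coordinates
are the point `y = sp p` of Euclidean space. -/

open MeasureTheory Metric Filter Topology Set
open scoped ContDiff ENNReal

noncomputable section
namespace Vale.Agent.P366.KS

open Vale.Agent.P366.H353 (Dat)

/-! ### Lorentzian metrics in coordinates -/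

section General

variable {n : ℕ}

/-- The components of the Ricci tensor of `g`. -/
def ric (g : Stmt.Field n) (i j : Fin n) (x : Stmt.E n) : ℝ :=
  ∑ k, (Stmt.pd k (Stmt.chr g k i j) x - Stmt.pd j (Stmt.chr g k i k) x +
    ∑ l, (Stmt.chr g k k l x * Stmt.chr g l i j x - Stmt.chr g k j l x * Stmt.chr g l i k x))

/-- The components of the Einstein tensor of `g`. -/
def ein (g : Stmt.Field n) (i j : Fin n) (x : Stmt.E n) : ℝ := ric g i j x - Stmt.scal g x * g x i j / 2

/-- The vector `X` at `x` is timelike for `g` and future directed: `w` increases along `X`. -/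
def FutureTimelike (g : Stmt.Field n) (w : Stmt.E n → ℝ) (x : Stmt.E n) (X : Fin n → ℝ) : Prop :=
  (∑ i, ∑ j, g x i j * X i * X j < 0) ∧ 0 < ∑ i, Stmt.pd i w x * X i

/-- The dominant energy condition at the point `x`: the Einstein tensor is nonnegative on each pair
of future directed timelike vectors. -/
def DECat (g : Stmt.Field n) (w : Stmt.E n → ℝ) (x : Stmt.E n) : Prop :=
  ∀ X Y : Fin n → ℝ, FutureTimelike g w x X → FutureTimelike g w x Y →
    0 ≤ ∑ i, ∑ j, ein g i j x * X i * Y j

end General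

/-! ### Hypersurfaces `t = f(y)` of a spacetime of dimension four -/

/-- The space coordinates of a point of spacetime. -/
def sp (p : Stmt.E 4) : Stmt.E 3 := WithLp.toLp 2 fun i => p i.succ

/-- The point of spacetime with the time `t` over the point `y` of space. -/
def pt (t : ℝ) (y : Stmt.E 3) : Stmt.E 4 := WithLp.toLp 2 (Fin.cons t fun i => y i)

/-- The coordinate vector field `∂_i` of the hypersurface `t = f(y)`. -/
def tng (f : Stmt.E 3 → ℝ) (i : Fin 3) (y : Stmt.E 3) : Fin 4 → ℝ := Fin.cons (Stmt.pd i f y) (Pi.single i 1)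

/-- The covector `dt - df`. -/
def con (f : Stmt.E 3 → ℝ) (y : Stmt.E 3) : Fin 4 → ℝ := Fin.cons 1 fun i => - Stmt.pd i f y

/-- The metric induced by `G` on the hypersurface `t = f(y)`. -/
def indG (G : Stmt.Field 4) (f : Stmt.E 3 → ℝ) : Stmt.Field 3 := fun y i j =>
  ∑ a, ∑ b, G (pt (f y) y) a b * tng f i y a * tng f j y b

/-- The lapse: the future unit normal is `- lapse * (dt - df)` as a covector. -/
def lapse (G : Stmt.Field 4) (f : Stmt.E 3 → ℝ) (y : Stmt.E 3) : ℝ :=
  1 / √(-∑ a, ∑ b, Stmt.up G a b (pt (f y) y) * con f y a * con f y b)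

/-- The second fundamental form `K(X, Y) = - ⟨N, ∇_X Y⟩` of the hypersurface `t = f(y)` of the
spacetime with the metric `G`, where `N` is the future unit normal. -/
def indK (G : Stmt.Field 4) (f : Stmt.E 3 → ℝ) : Stmt.Field 3 := fun y i j =>
  lapse G f y * (Stmt.pd i (Stmt.pd j f) y +
    ∑ a, con f y a * ∑ b, ∑ c, Stmt.chr G a b c (pt (f y) y) * tng f i y b * tng f j y c)

/-! ### Null hypersurfaces of Minkowski space and Kerr-Schild metrics -/

/-- The map `x ↦ ∇H(x) + x`. -/
def Psi (H : Stmt.E 3 → ℝ) (x : Stmt.E 3) : Stmt.E 3 := WithLp.toLp 2 fun i => Stmt.pd i H x + x i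

/-- A regular null hypersurface of Minkowski space. The functions `H` and `U` are smooth off the
origin and homogeneous of degree one and zero. The closed surface with the points
`t = - U(ν), y = ∇H(ν) + U(ν) ν`, `|ν| = 1`, is spacelike and its past outgoing null rays
`t = - s, y = ∇H(ν) + s ν`, `U(ν) ≤ s`, are regular (`Dat.pos`) and project injectively to
Euclidean space: with `x = s ν` this is the map `Psi H`. -/
structure Cone extends Dat where
  posU : ∀ x, x ≠ 0 → 0 < U x
  inj : Set.InjOn (Psi H) {x | x ≠ 0 ∧ U x ≤ ‖x‖}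

/-- The function `w = t + λ(y)`. -/
def nul (lam : Stmt.E 3 → ℝ) (p : Stmt.E 4) : ℝ := p 0 + lam (sp p)

/-- The Kerr-Schild metric `- dt^2 + |dy|^2 + V(t, y) (dt + dλ)^2`. -/
def ksG (lam : Stmt.E 3 → ℝ) (V : Stmt.E 4 → ℝ) : Stmt.Field 4 := fun p i j =>
  (if i = j then (if i = 0 then -1 else 1) else 0) + V p * Stmt.pd i (nul lam) p * Stmt.pd j (nul lam) p

/-- The exterior initial data `D` are the part outside the surface
`t = - U(ν), y = ∇H(ν) + U(ν) ν` of the hypersurface `t = f(y)` of the spacetime with the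
Kerr-Schild metric `ksG lam V`. The function `f` vanishes for large `|y|`. On the exterior `λ` is
the function with `λ = s` at `y = ∇H(ν) + s ν`. -/
structure IsSlice (C : Cone) (lam : Stmt.E 3 → ℝ) (V : Stmt.E 4 → ℝ) (f : Stmt.E 3 → ℝ)
    (D : Stmt.Exterior 3) : Prop where
  dom : ∀ y, 0 ≤ D.F y ↔ ∃ x, x ≠ 0 ∧ C.U x ≤ ‖x‖ ∧ Psi C.H x = y
  bdr : ∀ x, x ≠ 0 → ‖x‖ = C.U x → D.F (Psi C.H x) = 0 ∧ f (Psi C.H x) = - C.U x
  smL : ∀ y, 0 ≤ D.F y → ContDiffAt ℝ ∞ lam y
  eqL : ∀ x, x ≠ 0 → C.U x ≤ ‖x‖ → lam (Psi C.H x) = ‖x‖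
  smf : ∀ y, 0 ≤ D.F y → ContDiffAt ℝ ∞ f y
  cpt : ∃ R, ∀ y, R < Stmt.len y → f y = 0
  met : ∀ y, 0 ≤ D.F y → ∀ i j, D.g y i j = indG (ksG lam V) f y i j
  sff : ∀ y, 0 ≤ D.F y → ∀ i j, D.K y i j = indK (ksG lam V) f y i j

/-- The region of spacetime between the null hypersurface `t + λ = 0` and the hypersurface
`t = f(y)`, both included. -/
def Region (lam f : Stmt.E 3 → ℝ) (D : Stmt.Exterior 3) : Set (Stmt.E 4) :=
  {p | 0 ≤ D.F (sp p) ∧ 0 ≤ nul lam p ∧ p 0 ≤ f (sp p)}

end Vale.Agent.P366.KS
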