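import Vale.Agent.P366.H222.Defs
import Vale.Agent.P366.H353.Basic

/-! Notation for the proofs on Kerr-Schild exteriors. -/

open MeasureTheory Metric Filter Topology Set
open scoped ContDiff ENNReal

noncomputable section
namespace Vale.Agent.P366.KS

open Vale.Agent.P366 (pd E)
open Vale.Agent.P366.H353

/-- The point `∇H(x) + s x`, `x` a unit vector: the point `Psi H (s • x)`. -/
def Y (H : E 3 → ℝ) (x : E 3) (s : ℝ) : E 3 := WithLp.toLp 2 fun i => pd i H x + s * x i

/-- `W = Hess h + (h + s) I` at the unit vector `x`. -/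
def Ws (H : E 3 → ℝ) (s : ℝ) (x : E 3) (i j : Fin 3) : ℝ := hs H i j x + s * pr x i j

/-- the derivative of `f` in the direction `∇λ` -/
def dL (lam f : E 3 → ℝ) (y : E 3) : ℝ := ∑ i, pd i lam y * pd i f y

/-- the vector field `b = - ∇ᵀ f / (1 + ∂_λ f)` -/
def bv (lam f : E 3 → ℝ) (i : Fin 3) (y : E 3) : ℝ :=
  - (pd i f y - dL lam f y * pd i lam y) / (1 + dL lam f y)

/-- `θ_ℓ`: the flat outgoing expansion of the level set of `f + λ` -/
def thl (lam f : E 3 → ℝ) (y : E 3) : ℝ :=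
  lap lam y * (1 - ∑ i, pd i f y ^ 2) / (1 + dL lam f y) ^ 2 +
    2 / (1 + dL lam f y) *
      ((∑ i, ∑ j, hs f i j y * pr (fun k => pd k lam y) i j) +
        2 * (∑ i, ∑ j, hs f i j y * bv lam f i y * pd j lam y) +
        (∑ i, bv lam f i y ^ 2) * ∑ i, ∑ j, hs f i j y * pd i lam y * pd j lam y)

end Vale.Agent.P366.KS
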