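import Vale.Agent.P366.H222.Int
import Vale.Agent.P366.H375.D

/-! Geometry of the rays, part 1. -/

open MeasureTheory Metric Filter Topology Set
open scoped ContDiff ENNReal

noncomputable section
namespace Vale.Agent.P366.KS

open Vale.Agent.P366 (pd E)
open Vale.Agent.P366.H353

variable {C : Cone} {lam f : E 3 → ℝ} {V : E 4 → ℝ} {D : Stmt.Exterior 3} {x y z : E 3} {s t : ℝ}

/-! ### algebra of `Ws` -/

theorem Ws_symm (C : Cone) (hx : ‖x‖ = 1) (i j : Fin 3) : Ws C.H s x i j = Ws C.H s x j i := by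
  have hkd : kd i j = kd j i := by
    unfold kd
    simp only [eq_comm]
  unfold Ws pr
  rw [hs_symm C.smH (ne_zero_of_one hx) i j, hkd, mul_comm (x i)]

theorem Ws_x (C : Cone) (hx : ‖x‖ = 1) (i : Fin 3) : ∑ j, Ws C.H s x i j * x j = 0 := by
  have h1 := C.toDat.hs_x hx i
  have h2 := Dat.pr_x hx i
  unfold Ws
  simp only [Fin.sum_univ_three] at *
  linear_combination h1 + s * h2

theorem Ws_eq (C : Cone) (x : E 3) (s : ℝ) (i j : Fin 3) :
    Ws C.H s x i j = C.toDat.W x i j + (s - C.U x) * pr x i j := by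
  unfold Ws Dat.W
  ring

/-- the entries of `Ws` in a frame -/
theorem Ws_frame (C : Cone) (hx : ‖x‖ = 1) (hs : C.U x ≤ s) :
    ∃ (e f : Fin 3 → ℝ) (a b c : ℝ), Fr (x : Fin 3 → ℝ) e f ∧ Ws C.H s x = fm e f a b c ∧
      0 < a ∧ 0 < c ∧ 0 < a * c - b ^ 2 := by
  obtain ⟨e, f, a, b, c, F, hW, ha, hd⟩ := C.toDat.W_frame hx
  have hc : 0 < c := by
    by_contra h
    have : a * c ≤ 0 := mul_nonpos_of_nonneg_of_nonpos ha.le (not_lt.mp h)
    nlinarith [sq_nonneg b]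
  have hδ : 0 ≤ s - C.U x := sub_nonneg.2 hs
  refine ⟨e, f, a + (s - C.U x), b, c + (s - C.U x), F, ?_, by linarith, by linarith, ?_⟩
  · funext i j
    rw [Ws_eq, hW, F.pr_eq]
    unfold fm
    ring
  · nlinarith [mul_nonneg hδ ha.le, mul_nonneg hδ hc.le, mul_nonneg hδ hδ]

theorem det2_Ws_pos (C : Cone) (hx : ‖x‖ = 1) (hs : C.U x ≤ s) : 0 < det2 (Ws C.H s x) := by
  obtain ⟨e, f, a, b, c, F, hW, ha, hc, hd⟩ := Ws_frame C hx hs
  rw [hW, F.det_fm]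
  exact hd

theorem tr3_Ws_pos (C : Cone) (hx : ‖x‖ = 1) (hs : C.U x ≤ s) : 0 < tr3 (Ws C.H s x) := by
  obtain ⟨e, f, a, b, c, F, hW, ha, hc, hd⟩ := Ws_frame C hx hs
  rw [hW, F.tr_fm]
  linarith

/-! ### the map `Psi` -/

theorem posU' (C : Cone) (hx : ‖x‖ = 1) : 0 < C.U x := C.posU x (ne_zero_of_one hx)

theorem Psi_apply (C : Cone) (hz : z ≠ 0) (i : Fin 3) : Psi C.H z i = pd i C.H z + z i := by
  have h : Psi C.H z i = Stmt.pd i C.H z + z i := rfl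
  rw [h, Vale.Agent.P366.Bridge.pd_eq (C.smH.diff hz) i]

theorem Y_apply (H : E 3 → ℝ) (x : E 3) (s : ℝ) (i : Fin 3) : Y H x s i = pd i H x + s * x i := rfl

theorem Y_eq (C : Cone) (hx : ‖x‖ = 1) (hs : 0 < s) : Psi C.H (s • x) = Y C.H x s := by
  have hx0 := ne_zero_of_one hx
  ext i
  rw [Psi_apply C (smul_ne_zero hs.ne' hx0), Y_apply,
    (C.homH.pd C.smH i) x hx0 s hs]
  simp

theorem U_smul (C : Cone) (hx : x ≠ 0) (hs : 0 < s) : C.U (s • x) = C.U x := by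
  rw [C.homU x hx s hs]
  simp

theorem norm_smul_unit (hx : ‖x‖ = 1) (hs : 0 ≤ s) : ‖s • x‖ = s := by
  rw [norm_smul, hx, Real.norm_eq_abs, abs_of_nonneg hs, mul_one]

/-- every point off the origin is `s • x` with a unit vector `x` -/
theorem exists_unit (hz : z ≠ 0) : ∃ x : E 3, ‖x‖ = 1 ∧ z = ‖z‖ • x := by
  have h : ‖z‖ ≠ 0 := norm_ne_zero_iff.2 hz
  refine ⟨‖z‖⁻¹ • z, ?_, ?_⟩
  · rw [norm_smul, norm_inv, norm_norm, inv_mul_cancel₀ h]
  · rw [smul_smul, mul_inv_cancel₀ h, one_smul]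

/-- the points of the exterior -/
theorem mem_iff (hS : IsSlice C lam V f D) :
    0 ≤ D.F y ↔ ∃ x s, ‖x‖ = 1 ∧ C.U x ≤ s ∧ Y C.H x s = y := by
  rw [hS.dom y]
  constructor
  · rintro ⟨z, hz, hU, hy⟩
    obtain ⟨x, hx, hzx⟩ := exists_unit hz
    have hn : 0 < ‖z‖ := norm_pos_iff.2 hz
    have hUx : C.U z = C.U x := by
      conv_lhs => rw [hzx]
      exact U_smul C (ne_zero_of_one hx) hn
    refine ⟨x, ‖z‖, hx, hUx ▸ hU, ?_⟩
    rw [← Y_eq C hx hn, ← hzx, hy]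
  · rintro ⟨x, s, hx, hU, hy⟩
    have hs : 0 < s := (posU' C hx).trans_le hU
    have hx0 := ne_zero_of_one hx
    refine ⟨s • x, smul_ne_zero hs.ne' hx0, ?_, ?_⟩
    · rw [U_smul C hx0 hs, norm_smul_unit hx hs.le]
      exact hU
    · rw [Y_eq C hx hs, hy]

theorem Y_inj (C : Cone) {x' : E 3} {s' : ℝ} (hx : ‖x‖ = 1) (hs : C.U x ≤ s) (hx' : ‖x'‖ = 1)
    (hs' : C.U x' ≤ s') (h : Y C.H x s = Y C.H x' s') : x = x' ∧ s = s' := by
  have h0 : 0 < s := (posU' C hx).trans_le hs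
  have h0' : 0 < s' := (posU' C hx').trans_le hs'
  have hx0 := ne_zero_of_one hx
  have hx0' := ne_zero_of_one hx'
  rw [← Y_eq C hx h0, ← Y_eq C hx' h0'] at h
  have := C.inj (x₁ := s • x) (x₂ := s' • x')
    ⟨smul_ne_zero h0.ne' hx0, by rw [U_smul C hx0 h0, norm_smul_unit hx h0.le]; exact hs⟩
    ⟨smul_ne_zero h0'.ne' hx0', by rw [U_smul C hx0' h0', norm_smul_unit hx' h0'.le]; exact hs'⟩ h
  have hn : s = s' := by
    have := congrArg norm this
    rwa [norm_smul_unit hx h0.le, norm_smul_unit hx' h0'.le] at this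
  refine ⟨?_, hn⟩
  rw [hn] at this
  exact smul_right_injective _ h0'.ne' this

theorem lam_Y (hS : IsSlice C lam V f D) (hx : ‖x‖ = 1) (hs : C.U x ≤ s) :
    lam (Y C.H x s) = s := by
  have h0 : 0 < s := (posU' C hx).trans_le hs
  have hx0 := ne_zero_of_one hx
  rw [← Y_eq C hx h0, hS.eqL (s • x) (smul_ne_zero h0.ne' hx0)
    (by rw [U_smul C hx0 h0, norm_smul_unit hx h0.le]; exact hs), norm_smul_unit hx h0.le]

theorem mem_Y (hS : IsSlice C lam V f D) (hx : ‖x‖ = 1) (hs : C.U x ≤ s) :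
    0 ≤ D.F (Y C.H x s) := (mem_iff hS).2 ⟨x, s, hx, hs, rfl⟩

/-! ### the derivative of `Psi` -/

theorem Psi_contDiffAt (C : Cone) (hz : z ≠ 0) : ContDiffAt ℝ ∞ (Psi C.H) z := by
  have h : ContDiffAt ℝ ∞ (fun z : E 3 => (WithLp.toLp 2 fun i => pd i C.H z + z i : E 3)) z := by
    rw [contDiffAt_piLp]
    intro i
    exact ((C.smH.pd i) z hz).add (Sm.coord i z hz)
  refine h.congr_of_eventuallyEq ?_
  filter_upwards [nhds_ne hz] with w hw
  ext i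
  exact Psi_apply C hw i

theorem fderiv_Psi (C : Cone) (hz : z ≠ 0) (v : E 3) (i : Fin 3) :
    fderiv ℝ (Psi C.H) z v i = (∑ j, hs C.H i j z * v j) + v i := by
  have hd := ((Psi_contDiffAt C hz).differentiableAt (by simp)).hasFDerivAt
  have h1 : HasFDerivAt (fun w : E 3 => Psi C.H w i)
      ((EuclideanSpace.proj i : E 3 →L[ℝ] ℝ).comp (fderiv ℝ (Psi C.H) z)) z :=
    (EuclideanSpace.proj i : E 3 →L[ℝ] ℝ).hasFDerivAt.comp z hd
  have h2 : HasFDerivAt (fun w : E 3 => pd i C.H w + w i)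
      (fderiv ℝ (pd i C.H) z + (EuclideanSpace.proj i : E 3 →L[ℝ] ℝ)) z :=
    ((C.smH.pd i).diff hz).hasFDerivAt.add (EuclideanSpace.proj i : E 3 →L[ℝ] ℝ).hasFDerivAt
  have h3 : (fun w : E 3 => Psi C.H w i) =ᶠ[𝓝 z] fun w : E 3 => pd i C.H w + w i := by
    filter_upwards [nhds_ne hz] with w hw using Psi_apply C hw i
  have h4 := (h2.congr_of_eventuallyEq h3).unique h1
  have h5 := congrArg (fun L : E 3 →L[ℝ] ℝ => L v) h4
  have h6 : fderiv ℝ (pd i C.H) z v + v i = fderiv ℝ (Psi C.H) z v i := h5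
  rw [← h6, Vale.Agent.P366.fderiv_eq_sum_pd]
  congr 1
  refine Finset.sum_congr rfl fun j _ => ?_
  rw [mul_comm, hs_symm C.smH hz i j]
  rfl

end Vale.Agent.P366.KS
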