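import Vale.Agent.P366.H222.X0a

/-! Geometry of the rays, part 2. -/

open MeasureTheory Metric Filter Topology Set
open scoped ContDiff ENNReal

noncomputable section
namespace Vale.Agent.P366.KS

open Vale.Agent.P366 (pd E)
open Vale.Agent.P366.H353

variable {C : Cone} {lam f : E 3 → ℝ} {V : E 4 → ℝ} {D : Stmt.Exterior 3} {x y z : E 3} {s t : ℝ}

/-- the Hessian of the support function along a ray -/
theorem hs_H_smul (C : Cone) (hx : ‖x‖ = 1) (hs : 0 < s) (i j : Fin 3) :
    H353.hs C.H i j (s • x) = s⁻¹ * H353.hs C.H i j x := by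
  rw [(C.homH.hs C.smH i j) x (ne_zero_of_one hx) s hs]
  norm_num

/-- `DΨ v = s⁻¹ (W v) + ⟨x, v⟩ x` at `s x` -/
theorem fderiv_Psi_Y (C : Cone) (hx : ‖x‖ = 1) (hs : 0 < s) (v : E 3) (i : Fin 3) :
    fderiv ℝ (Psi C.H) (s • x) v i =
      s⁻¹ * (∑ j, Ws C.H s x i j * v j) + (∑ j, x j * v j) * x i := by
  rw [fderiv_Psi C (smul_ne_zero hs.ne' (ne_zero_of_one hx))]
  have h1 : ∑ j, kd i j * v j = v i := by simp [kd]
  have h2 : ∀ j, H353.hs C.H i j (s • x) = s⁻¹ * H353.hs C.H i j x := hs_H_smul C hx hs i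
  simp only [h2]
  unfold Ws pr
  have hs0 := hs.ne'
  simp only [Fin.sum_univ_three] at *
  field_simp
  linear_combination (-s) * h1

theorem fderiv_Psi_inj (C : Cone) (hx : ‖x‖ = 1) (hs : C.U x ≤ s) {v : E 3}
    (h : fderiv ℝ (Psi C.H) (s • x) v = 0) : v = 0 := by
  have h0 : 0 < s := (posU' C hx).trans_le hs
  obtain ⟨e, f, a, b, c, F, hW, ha, hc, hd⟩ := Ws_frame C hx hs
  have hi : ∀ i, s⁻¹ * (∑ j, Ws C.H s x i j * v j) + (∑ j, x j * v j) * x i = 0 := by
    intro i
    rw [← fderiv_Psi_Y C hx h0 v i, h]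
    rfl
  have hWx := fun i => Ws_x (s := s) C hx i
  have hxx := sum_xx hx
  have hsym := fun i j => Ws_symm (s := s) C hx i j
  -- the component along `x`
  have hxv : ∑ j, x j * v j = 0 := by
    have e1 : ∑ i, x i * (s⁻¹ * (∑ j, Ws C.H s x i j * v j) + (∑ j, x j * v j) * x i) = 0 := by
      simp only [hi, mul_zero, Finset.sum_const_zero]
    have e2 : ∑ i, x i * (∑ j, Ws C.H s x i j * v j) = 0 := by
      have h3 : ∀ j, ∑ i, Ws C.H s x i j * x i = 0 := by
        intro j
        rw [← hWx j]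
        exact Finset.sum_congr rfl fun i _ => by rw [hsym i j]
      have h30 := h3 0
      have h31 := h3 1
      have h32 := h3 2
      simp only [Fin.sum_univ_three] at *
      linear_combination v 0 * h30 + v 1 * h31 + v 2 * h32
    simp only [Fin.sum_univ_three] at *
    linear_combination e1 - s⁻¹ * e2 - (x 0 * v 0 + x 1 * v 1 + x 2 * v 2) * hxx
  have hWv : ∀ i, ∑ j, Ws C.H s x i j * v j = 0 := by
    intro i
    have := hi i
    rw [hxv, zero_mul, add_zero] at this
    exact (mul_eq_zero.1 this).resolve_left (inv_ne_zero h0.ne')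
  -- the components along `e`, `f`
  have hq1 : a * (∑ i, e i * v i) + b * (∑ i, f i * v i) = 0 := by
    have e1 : ∑ i, e i * (∑ j, Ws C.H s x i j * v j) = 0 := by
      simp only [hWv, mul_zero, Finset.sum_const_zero]
    have e2 := F.ee
    have e3 := F.ef
    rw [hW] at e1
    unfold fm at e1
    simp only [Fin.sum_univ_three] at *
    linear_combination e1 - (a * (e 0 * v 0 + e 1 * v 1 + e 2 * v 2) +
      b * (f 0 * v 0 + f 1 * v 1 + f 2 * v 2)) * e2 -
      (b * (e 0 * v 0 + e 1 * v 1 + e 2 * v 2) + c * (f 0 * v 0 + f 1 * v 1 + f 2 * v 2)) * e3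
  have hq2 : b * (∑ i, e i * v i) + c * (∑ i, f i * v i) = 0 := by
    have e1 : ∑ i, f i * (∑ j, Ws C.H s x i j * v j) = 0 := by
      simp only [hWv, mul_zero, Finset.sum_const_zero]
    have e2 := F.ff
    have e3 := F.ef
    rw [hW] at e1
    unfold fm at e1
    simp only [Fin.sum_univ_three] at *
    linear_combination e1 - (b * (e 0 * v 0 + e 1 * v 1 + e 2 * v 2) +
      c * (f 0 * v 0 + f 1 * v 1 + f 2 * v 2)) * e2 -
      (a * (e 0 * v 0 + e 1 * v 1 + e 2 * v 2) + b * (f 0 * v 0 + f 1 * v 1 + f 2 * v 2)) * e3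
  have hev : ∑ i, e i * v i = 0 := by
    have : (a * c - b ^ 2) * ∑ i, e i * v i = 0 := by linear_combination c * hq1 - b * hq2
    exact (mul_eq_zero.1 this).resolve_left hd.ne'
  have hfv : ∑ i, f i * v i = 0 := by
    have : (a * c - b ^ 2) * ∑ i, f i * v i = 0 := by linear_combination a * hq2 - b * hq1
    exact (mul_eq_zero.1 this).resolve_left hd.ne'
  ext i
  rw [F.vec v i, hxv, hev, hfv]
  simp

/-- `Psi` maps neighbourhoods onto neighbourhoods -/
theorem Psi_map_nhds (C : Cone) (hx : ‖x‖ = 1) (hs : C.U x ≤ s) :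
    map (Psi C.H) (𝓝 (s • x)) = 𝓝 (Psi C.H (s • x)) := by
  have h0 : 0 < s := (posU' C hx).trans_le hs
  have hz : s • x ≠ 0 := smul_ne_zero h0.ne' (ne_zero_of_one hx)
  have hinj : Function.Injective (fderiv ℝ (Psi C.H) (s • x)) := by
    rw [injective_iff_map_eq_zero]
    intro v hv
    exact fderiv_Psi_inj C hx hs hv
  let L : E 3 ≃L[ℝ] E 3 := (LinearEquiv.ofInjectiveEndo
    (fderiv ℝ (Psi C.H) (s • x) : E 3 →ₗ[ℝ] E 3) hinj).toContinuousLinearEquiv
  have hL : (L : E 3 →L[ℝ] E 3) = fderiv ℝ (Psi C.H) (s • x) := by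
    ext v
    rfl
  have hd : HasStrictFDerivAt (Psi C.H) (L : E 3 →L[ℝ] E 3) (s • x) := by
    rw [hL]
    exact (Psi_contDiffAt C hz).hasStrictFDerivAt (by simp)
  exact hd.map_nhds_eq_of_equiv

theorem U_cont (C : Cone) (hz : z ≠ 0) : ContinuousAt C.U z := C.smU.contAt hz

/-- points of the exterior near a ray -/
theorem Psi_mem (hS : IsSlice C lam V f D) (hz : z ≠ 0) (hU : C.U z ≤ ‖z‖) :
    0 ≤ D.F (Psi C.H z) := (hS.dom _).2 ⟨z, hz, hU, rfl⟩

theorem eventually_P (C : Cone) (hx : ‖x‖ = 1) (hs : C.U x < s) :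
    ∀ᶠ z in 𝓝 (s • x), z ≠ 0 ∧ C.U z < ‖z‖ := by
  have h0 : 0 < s := (posU' C hx).trans hs
  have hx0 := ne_zero_of_one hx
  have hz : s • x ≠ 0 := smul_ne_zero h0.ne' hx0
  have h1 : ∀ᶠ z in 𝓝 (s • x), C.U z < ‖z‖ := by
    have hlt : C.U (s • x) < ‖s • x‖ := by
      rw [U_smul C hx0 h0, norm_smul_unit hx h0.le]
      exact hs
    exact (U_cont C hz).eventually_lt continuous_norm.continuousAt hlt
  exact (nhds_ne hz).and h1

theorem F_pos (hS : IsSlice C lam V f D) (hx : ‖x‖ = 1) (hs : C.U x < s) :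
    0 < D.F (Y C.H x s) := by
  have h0 : 0 < s := (posU' C hx).trans hs
  have hge : 0 ≤ D.F (Y C.H x s) := mem_Y hS hx hs.le
  rcases hge.lt_or_eq with h | h
  · exact h
  exfalso
  have hmin : IsLocalMin D.F (Y C.H x s) := by
    have h1 : ∀ᶠ y in 𝓝 (Psi C.H (s • x)), 0 ≤ D.F y := by
      rw [← Psi_map_nhds C hx hs.le, eventually_map]
      filter_upwards [eventually_P C hx hs] with z hz
      exact Psi_mem hS hz.1 hz.2.le
    rw [Y_eq C hx h0] at h1
    filter_upwards [h1] with y hy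
    rw [← h]
    exact hy
  obtain ⟨i, hi⟩ := D.dom.2.1 _ h.symm
  apply hi
  have hsm : DifferentiableAt ℝ D.F (Y C.H x s) := D.dom.1.differentiable (by simp) _
  rw [Vale.Agent.P366.Bridge.pd_eq hsm, Vale.Agent.P366.pd, hmin.fderiv_eq_zero]
  rfl

theorem Y_cont (H : E 3 → ℝ) (x : E 3) : Continuous (Y H x) := by
  have : Continuous fun s : ℝ => (WithLp.toLp 2 fun i => pd i H x + s * x i : E 3) := by
    fun_prop
  exact this

/-! ### the derivatives of `λ` -/

theorem lam_Psi_eventually (hS : IsSlice C lam V f D) (hx : ‖x‖ = 1) (hs : C.U x < s) :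
    (fun z => lam (Psi C.H z)) =ᶠ[𝓝 (s • x)] fun z => ‖z‖ := by
  filter_upwards [eventually_P C hx hs] with z hz
  exact hS.eqL z hz.1 hz.2.le

/-- the interior version -/
theorem pd_lam_Y_lt (hS : IsSlice C lam V f D) (hx : ‖x‖ = 1) (hs : C.U x < s) (i : Fin 3) :
    pd i lam (Y C.H x s) = x i := by
  have h0 : 0 < s := (posU' C hx).trans hs
  have hx0 := ne_zero_of_one hx
  have hz : s • x ≠ 0 := smul_ne_zero h0.ne' hx0
  have hL : DifferentiableAt ℝ lam (Psi C.H (s • x)) := by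
    rw [Y_eq C hx h0]
    exact (hS.smL _ (mem_Y hS hx hs.le)).differentiableAt (by simp)
  have h1 := hL.hasFDerivAt.comp (s • x)
    ((Psi_contDiffAt C hz).differentiableAt (by simp)).hasFDerivAt
  have h2 : HasFDerivAt (fun z : E 3 => ‖z‖) (fderiv ℝ (fun z : E 3 => ‖z‖) (s • x)) (s • x) :=
    ((Sm.norm (s • x) hz).differentiableAt (by simp)).hasFDerivAt
  have h3 := (h2.congr_of_eventuallyEq (lam_Psi_eventually hS hx hs)).unique h1
  -- the difference of the gradients
  let g : E 3 := WithLp.toLp 2 fun i => pd i lam (Psi C.H (s • x)) - x i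
  have key : ∀ v : E 3, ∑ i, pd i lam (Psi C.H (s • x)) * (fderiv ℝ (Psi C.H) (s • x) v i) =
      ∑ i, x i * v i := by
    intro v
    have h4 := congrArg (fun L : E 3 →L[ℝ] ℝ => L v) h3
    have h5 : fderiv ℝ (fun z : E 3 => ‖z‖) (s • x) v =
        fderiv ℝ lam (Psi C.H (s • x)) (fderiv ℝ (Psi C.H) (s • x) v) := h4
    rw [Vale.Agent.P366.fderiv_eq_sum_pd, Vale.Agent.P366.fderiv_eq_sum_pd lam] at h5
    rw [show ∑ i, pd i lam (Psi C.H (s • x)) * (fderiv ℝ (Psi C.H) (s • x) v i) =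
      ∑ i, (fderiv ℝ (Psi C.H) (s • x) v i) * pd i lam (Psi C.H (s • x)) from
      Finset.sum_congr rfl fun i _ => mul_comm _ _, ← h5]
    refine Finset.sum_congr rfl fun i _ => ?_
    rw [pd_norm' hz, norm_smul_unit hx h0.le]
    have hs0 := h0.ne'
    simp only [PiLp.smul_apply, smul_eq_mul]
    field_simp
  have hg : fderiv ℝ (Psi C.H) (s • x) g = 0 := by
    -- symmetry of the derivative
    have hsym : ∀ u v : E 3, ∑ i, u i * (fderiv ℝ (Psi C.H) (s • x) v i) =
        ∑ i, v i * (fderiv ℝ (Psi C.H) (s • x) u i) := by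
      intro u v
      simp only [fderiv_Psi_Y C hx h0]
      have h01 := Ws_symm (s := s) C hx 0 1
      have h02 := Ws_symm (s := s) C hx 0 2
      have h12 := Ws_symm (s := s) C hx 1 2
      simp only [Fin.sum_univ_three]
      rw [h01, h02, h12]
      ring
    have hxx : ∀ v : E 3, ∑ i, x i * (fderiv ℝ (Psi C.H) (s • x) v i) = ∑ i, x i * v i := by
      intro v
      have h3 : ∀ j, ∑ i, Ws C.H s x i j * x i = 0 := by
        intro j
        rw [← Ws_x C hx j]
        exact Finset.sum_congr rfl fun i _ => by rw [Ws_symm (s := s) C hx i j]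
      have h30 := h3 0
      have h31 := h3 1
      have h32 := h3 2
      have hxx := sum_xx hx
      simp only [fderiv_Psi_Y C hx h0]
      simp only [Fin.sum_univ_three] at *
      linear_combination s⁻¹ * (v 0 * h30 + v 1 * h31 + v 2 * h32) +
        (x 0 * v 0 + x 1 * v 1 + x 2 * v 2) * hxx
    have hv : ∀ v : E 3, ∑ i, v i * (fderiv ℝ (Psi C.H) (s • x) g i) = 0 := by
      intro v
      rw [← hsym g v]
      have hgi : ∀ i, g i = pd i lam (Psi C.H (s • x)) - x i := fun i => rfl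
      have h4 := key v
      have h5 := hxx v
      simp only [hgi, sub_mul, Finset.sum_sub_distrib]
      rw [h4, h5, sub_self]
    ext i
    have := hv (EuclideanSpace.single i 1)
    simpa using this
  have := fderiv_Psi_inj C hx hs.le hg
  have h6 : pd i lam (Psi C.H (s • x)) - x i = 0 := congrArg (fun g : E 3 => g i) this
  rw [Y_eq C hx h0] at h6
  linarith

theorem pd_contAt {g : E 3 → ℝ} (hg : ContDiffAt ℝ ∞ g y) (i : Fin 3) : ContinuousAt (pd i g) y := by
  have h1 : ContDiffAt ℝ ∞ (fderiv ℝ g) y := hg.fderiv_right (by simp)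
  exact (h1.clm_apply (contDiffAt_const (c := EuclideanSpace.single i (1 : ℝ)))).continuousAt

theorem pd_contDiffAt {g : E 3 → ℝ} (hg : ContDiffAt ℝ ∞ g y) (i : Fin 3) :
    ContDiffAt ℝ ∞ (pd i g) y := by
  have h1 : ContDiffAt ℝ ∞ (fderiv ℝ g) y := hg.fderiv_right (by simp)
  exact h1.clm_apply (contDiffAt_const (c := EuclideanSpace.single i (1 : ℝ)))

/-- an identity along the open ray extends to its end point -/
theorem ray_closed {g : ℝ → ℝ} {a c : ℝ} (hg : ContinuousAt g a) (h : ∀ s, a < s → g s = c) :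
    g a = c := by
  have h1 : Tendsto g (𝓝[>] a) (𝓝 (g a)) := hg.tendsto.mono_left nhdsWithin_le_nhds
  have h2 : Tendsto g (𝓝[>] a) (𝓝 c) := by
    refine tendsto_const_nhds.congr' ?_
    filter_upwards [self_mem_nhdsWithin] with s hs
    exact (h s hs).symm
  exact tendsto_nhds_unique h1 h2

theorem pd_lam_Y (hS : IsSlice C lam V f D) (hx : ‖x‖ = 1) (hs : C.U x ≤ s) (i : Fin 3) :
    pd i lam (Y C.H x s) = x i := by
  rcases hs.lt_or_eq with h | h
  · exact pd_lam_Y_lt hS hx h i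
  · have hc : ContinuousAt (fun t => pd i lam (Y C.H x t)) s :=
      ContinuousAt.comp (f := Y C.H x) (pd_contAt (hS.smL _ (mem_Y hS hx hs)) i)
        (Y_cont C.H x).continuousAt
    exact ray_closed hc fun t ht => pd_lam_Y_lt hS hx (h ▸ ht) i

end Vale.Agent.P366.KS
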