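import Vale.Agent.P366.H222.X0b

/-! Geometry of the rays, part 3: second derivatives of `λ`, the region. -/

open MeasureTheory Metric Filter Topology Set
open scoped ContDiff ENNReal

noncomputable section
namespace Vale.Agent.P366.KS

open Vale.Agent.P366 (pd E)
open Vale.Agent.P366.H353

variable {C : Cone} {lam f : E 3 → ℝ} {V : E 4 → ℝ} {D : Stmt.Exterior 3} {x y z : E 3} {s t : ℝ}

/-- second derivatives commute -/
theorem hs_symm_at {g : E 3 → ℝ} (hc : ContDiffAt ℝ ∞ g y) (i j : Fin 3) :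
    H353.hs g i j y = H353.hs g j i y := by
  have hd : DifferentiableAt ℝ (fderiv ℝ g) y :=
    (hc.fderiv_right (m := ∞) (by simp)).differentiableAt (by simp)
  have key : ∀ a b : Fin 3, H353.hs g a b y =
      fderiv ℝ (fderiv ℝ g) y (EuclideanSpace.single a 1) (EuclideanSpace.single b 1) := by
    intro a b
    unfold H353.hs Vale.Agent.P366.pd
    have := fderiv_clm_apply hd (differentiableAt_const (EuclideanSpace.single b (1 : ℝ)))
    rw [this]
    simp
  rw [key, key]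
  have h2 : minSmoothness ℝ 2 ≤ (∞ : WithTop ℕ∞) := by
    rw [minSmoothness_of_isRCLikeNormedField]
    exact WithTop.coe_le_coe.2 (le_top : (2 : ℕ∞) ≤ ⊤)
  exact (hc.isSymmSndFDerivAt h2).eq _ _

/-- the gradient of `λ` at the points `Psi z` -/
theorem pd_lam_Psi (hS : IsSlice C lam V f D) (hz : z ≠ 0) (hU : C.U z ≤ ‖z‖) (i : Fin 3) :
    pd i lam (Psi C.H z) = z i / ‖z‖ := by
  obtain ⟨x, hx, hzx⟩ := exists_unit hz
  have hn : 0 < ‖z‖ := norm_pos_iff.2 hz
  have hUx : C.U x ≤ ‖z‖ := by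
    rw [← U_smul C (ne_zero_of_one hx) hn, ← hzx]
    exact hU
  have h1 : Psi C.H z = Y C.H x ‖z‖ := by
    rw [← Y_eq C hx hn, ← hzx]
  rw [h1, pd_lam_Y hS hx hUx]
  have h2 : z i = ‖z‖ * x i := by
    conv_lhs => rw [hzx]
    simp
  rw [h2]
  field_simp

theorem pd_coord_div_norm (hz : z ≠ 0) (i j : Fin 3) :
    pd j (fun w : E 3 => w i / ‖w‖) z = kd j i / ‖z‖ - z i * z j / ‖z‖ ^ 3 := by
  have hn : ‖z‖ ≠ 0 := norm_ne_zero_iff.2 hz
  have h1 : pd j (fun w : E 3 => w i) z = kd j i := pd_coord' j i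
  have h2 : pd j (fun w : E 3 => (‖w‖)⁻¹) z = - (z j / ‖z‖) / ‖z‖ ^ 2 := by
    have hd : HasFDerivAt (fun w : E 3 => ‖w‖) (fderiv ℝ (fun w : E 3 => ‖w‖) z) z :=
      ((Sm.norm z hz).differentiableAt (by simp)).hasFDerivAt
    have h3 := (hasDerivAt_inv hn).comp_hasFDerivAt z hd
    have h4 : fderiv ℝ (fun w : E 3 => (‖w‖)⁻¹) z = -(‖z‖ ^ 2)⁻¹ • fderiv ℝ (fun w : E 3 => ‖w‖) z :=
      h3.fderiv
    have h5 := pd_norm' (x := z) hz j
    unfold Vale.Agent.P366.pd at h5 ⊢
    rw [h4, ContinuousLinearMap.smul_apply, h5, smul_eq_mul]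
    field_simp
  have h3 : (fun w : E 3 => w i / ‖w‖) = fun w => w i * (‖w‖)⁻¹ := by
    funext w
    rw [div_eq_mul_inv]
  have hdi : DifferentiableAt ℝ (fun w : E 3 => (‖w‖)⁻¹) z :=
    ((Sm.norm z hz).differentiableAt (by simp)).inv hn
  rw [h3, Vale.Agent.P366.pd_mul ((Sm.coord i z hz).differentiableAt (by simp)) hdi, h1, h2]
  field_simp
  ring

/-- the interior version of `D²λ W = 1` -/
theorem hs_lam_Y_aux (hS : IsSlice C lam V f D) (hx : ‖x‖ = 1) (hs : C.U x < s) (i j : Fin 3) :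
    ∑ k, H353.hs lam i k (Y C.H x s) * (H353.hs C.H k j x + s * kd k j) = pr x i j := by
  have h0 : 0 < s := (posU' C hx).trans hs
  have hx0 := ne_zero_of_one hx
  have hz : s • x ≠ 0 := smul_ne_zero h0.ne' hx0
  have hsm : ContDiffAt ℝ ∞ lam (Psi C.H (s • x)) := by
    rw [Y_eq C hx h0]
    exact hS.smL _ (mem_Y hS hx hs.le)
  have hd1 : DifferentiableAt ℝ (pd i lam) (Psi C.H (s • x)) :=
    (pd_contDiffAt hsm i).differentiableAt (by simp)
  have h1 := hd1.hasFDerivAt.comp (s • x)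
    ((Psi_contDiffAt C hz).differentiableAt (by simp)).hasFDerivAt
  have he : (fun z => pd i lam (Psi C.H z)) =ᶠ[𝓝 (s • x)] fun z => z i / ‖z‖ := by
    filter_upwards [eventually_P C hx hs] with z hz
    exact pd_lam_Psi hS hz.1 hz.2.le i
  have h2 : fderiv ℝ (fun z : E 3 => z i / ‖z‖) (s • x) =
      (fderiv ℝ (pd i lam) (Psi C.H (s • x))).comp (fderiv ℝ (Psi C.H) (s • x)) := by
    rw [← he.fderiv_eq]
    exact h1.fderiv
  have h3 := congrArg (fun L : E 3 →L[ℝ] ℝ => L (EuclideanSpace.single j 1)) h2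
  have h4 : pd j (fun z : E 3 => z i / ‖z‖) (s • x) = fderiv ℝ (pd i lam) (Psi C.H (s • x))
      (fderiv ℝ (Psi C.H) (s • x) (EuclideanSpace.single j 1)) := h3
  rw [pd_coord_div_norm hz, Vale.Agent.P366.fderiv_eq_sum_pd, norm_smul_unit hx h0.le] at h4
  have h5 : ∀ k, fderiv ℝ (Psi C.H) (s • x) (EuclideanSpace.single j 1) k =
      s⁻¹ * H353.hs C.H k j x + kd k j := by
    intro k
    rw [fderiv_Psi C hz]
    have e1 : ∑ l, H353.hs C.H k l (s • x) * (EuclideanSpace.single j (1 : ℝ) : E 3) l =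
        H353.hs C.H k j (s • x) := by
      rw [Finset.sum_eq_single j]
      · simp
      · intro b _ hb
        simp [hb]
      · simp
    rw [e1, hs_H_smul C hx h0]
    simp [kd]
  simp only [h5] at h4
  rw [Y_eq C hx h0] at h4
  have h6 : ∀ k, pd k (pd i lam) (Y C.H x s) = H353.hs lam i k (Y C.H x s) := by
    intro k
    rw [hs_symm_at (hS.smL _ (mem_Y hS hx hs.le)) i k]
    rfl
  simp only [h6] at h4
  have hkd : kd j i = kd i j := by
    unfold kd
    simp only [eq_comm]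
  rw [hkd] at h4
  unfold pr
  have hs0 := h0.ne'
  simp only [PiLp.smul_apply, smul_eq_mul] at h4
  simp only [Fin.sum_univ_three] at *
  have e7 : s * (kd i j / s - s * x i * (s * x j) / s ^ 3) = kd i j - x i * x j := by
    field_simp
  rw [← e7, h4]
  field_simp

theorem hs_lam_mul_x_lt (hS : IsSlice C lam V f D) (hx : ‖x‖ = 1) (hs : C.U x < s) (i : Fin 3) :
    ∑ k, H353.hs lam i k (Y C.H x s) * x k = 0 := by
  have h0 : 0 < s := (posU' C hx).trans hs
  have h := hs_lam_Y_aux hS hx hs i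
  have hh := fun k => C.toDat.hs_x hx k
  have hp := Dat.pr_x hx i
  have hk : ∀ k, ∑ j, kd k j * x j = x k := by
    intro k
    simp [kd]
  have e1 : ∑ j, (∑ k, H353.hs lam i k (Y C.H x s) * (H353.hs C.H k j x + s * kd k j)) * x j = 0 := by
    simp only [h]
    exact hp
  have e2 : s * ∑ k, H353.hs lam i k (Y C.H x s) * x k = 0 := by
    rw [← e1]
    have hh0 := hh 0
    have hh1 := hh 1
    have hh2 := hh 2
    have hk0 := hk 0
    have hk1 := hk 1
    have hk2 := hk 2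
    simp only [Fin.sum_univ_three] at *
    linear_combination -(H353.hs lam i 0 (Y C.H x s) * (hh0 + s * hk0)) -
      (H353.hs lam i 1 (Y C.H x s) * (hh1 + s * hk1)) -
      (H353.hs lam i 2 (Y C.H x s) * (hh2 + s * hk2))
  exact (mul_eq_zero.1 e2).resolve_left h0.ne'

theorem hs_contAt {g : E 3 → ℝ} (hg : ContDiffAt ℝ ∞ g y) (i j : Fin 3) :
    ContinuousAt (H353.hs g i j) y := pd_contAt (pd_contDiffAt hg j) i

theorem hs_lam_mul_x (hS : IsSlice C lam V f D) (hx : ‖x‖ = 1) (hs : C.U x ≤ s) (i : Fin 3) :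
    ∑ k, H353.hs lam i k (Y C.H x s) * x k = 0 := by
  rcases hs.lt_or_eq with h | h
  · exact hs_lam_mul_x_lt hS hx h i
  · have hc : ContinuousAt (fun t => ∑ k, H353.hs lam i k (Y C.H x t) * x k) s := by
      refine tendsto_finsetSum _ fun k _ => ?_
      exact (ContinuousAt.comp (f := Y C.H x) (hs_contAt (hS.smL _ (mem_Y hS hx hs)) i k)
        (Y_cont C.H x).continuousAt).mul continuousAt_const
    exact ray_closed (g := fun t => ∑ k, H353.hs lam i k (Y C.H x t) * x k) hc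
      fun t ht => hs_lam_mul_x_lt hS hx (h ▸ ht) i

/-- `D²λ = W⁻¹` -/
theorem hs_lam_Y (hS : IsSlice C lam V f D) (hx : ‖x‖ = 1) (hs : C.U x ≤ s) (i j : Fin 3) :
    ∑ k, H353.hs lam i k (Y C.H x s) * Ws C.H s x k j = pr x i j := by
  have key : ∀ t, C.U x < t → ∑ k, H353.hs lam i k (Y C.H x t) * Ws C.H t x k j = pr x i j := by
    intro t ht
    have h1 := hs_lam_Y_aux hS hx ht i j
    have h2 := hs_lam_mul_x_lt hS hx ht i
    have h3 : ∀ k, Ws C.H t x k j = (H353.hs C.H k j x + t * kd k j) - t * (x k * x j) := by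
      intro k
      unfold Ws pr
      ring
    simp only [h3]
    simp only [Fin.sum_univ_three] at *
    linear_combination h1 - t * x j * h2
  rcases hs.lt_or_eq with h | h
  · exact key s h
  · have hc : ContinuousAt (fun t => ∑ k, H353.hs lam i k (Y C.H x t) * Ws C.H t x k j) s := by
      refine tendsto_finsetSum _ fun k _ => ?_
      refine (ContinuousAt.comp (f := Y C.H x) (hs_contAt (hS.smL _ (mem_Y hS hx hs)) i k)
        (Y_cont C.H x).continuousAt).mul ?_
      unfold Ws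
      fun_prop
    exact ray_closed (g := fun t => ∑ k, H353.hs lam i k (Y C.H x t) * Ws C.H t x k j) hc
      fun t ht => key t (h ▸ ht)

/-- `D²λ` in a frame -/
theorem lam_frame (hS : IsSlice C lam V f D) (hx : ‖x‖ = 1) (hs : C.U x ≤ s) :
    ∃ (e f' : Fin 3 → ℝ) (a b c p q r : ℝ), Fr (x : Fin 3 → ℝ) e f' ∧
      Ws C.H s x = fm e f' a b c ∧ (fun i j => H353.hs lam i j (Y C.H x s)) = fm e f' p q r ∧
      0 < a ∧ 0 < c ∧ 0 < a * c - b ^ 2 ∧ p * (a * c - b ^ 2) = c ∧ q * (a * c - b ^ 2) = -b ∧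
      r * (a * c - b ^ 2) = a := by
  obtain ⟨e, f', a, b, c, F, hW, ha, hc, hd⟩ := Ws_frame C hx hs
  have hsm := hS.smL _ (mem_Y hS hx hs)
  have hM := F.mat_eq (M := fun i j => H353.hs lam i j (Y C.H x s)) (fun i j => hs_symm_at hsm i j)
    (fun i => hs_lam_mul_x hS hx hs i)
  set p := qf (fun i j => H353.hs lam i j (Y C.H x s)) e e
  set q := qf (fun i j => H353.hs lam i j (Y C.H x s)) e f'
  set r := qf (fun i j => H353.hs lam i j (Y C.H x s)) f' f'
  have hprod : ∀ i j, ∑ k, fm e f' p q r i k * fm e f' a b c k j = fm e f' 1 0 1 i j := by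
    intro i j
    have h1 := hs_lam_Y hS hx hs i j
    rw [hW] at h1
    rw [← F.pr_eq, ← h1]
    refine Finset.sum_congr rfl fun k _ => ?_
    rw [← congrFun (congrFun hM i) k]
  have hee := F.ee
  have hff := F.ff
  have hef := F.ef
  -- contract with the frame
  have hmul : ∀ i j, ∑ k, fm e f' p q r i k * fm e f' a b c k j =
      (p * a + q * b) * (e i * e j) + (p * b + q * c) * (e i * f' j) +
      (q * a + r * b) * (f' i * e j) + (q * b + r * c) * (f' i * f' j) := by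
    intro i j
    unfold fm
    simp only [Fin.sum_univ_three] at *
    linear_combination (p * e i + q * f' i) * (a * e j + b * f' j) * hee +
      (q * e i + r * f' i) * (b * e j + c * f' j) * hff +
      ((p * e i + q * f' i) * (b * e j + c * f' j) + (q * e i + r * f' i) * (a * e j + b * f' j)) * hef
  have hcon : ∀ u v : Fin 3 → ℝ, ∑ i, ∑ j, u i * ((p * a + q * b) * (e i * e j) +
      (p * b + q * c) * (e i * f' j) + (q * a + r * b) * (f' i * e j) +
      (q * b + r * c) * (f' i * f' j)) * v j = ∑ i, ∑ j, u i * fm e f' 1 0 1 i j * v j := by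
    intro u v
    refine Finset.sum_congr rfl fun i _ => Finset.sum_congr rfl fun j _ => ?_
    rw [← hmul, hprod]
  have hgen : ∀ (u v : Fin 3 → ℝ) (A B G K : ℝ), ∑ i, ∑ j, u i * (A * (e i * e j) +
      B * (e i * f' j) + G * (f' i * e j) + K * (f' i * f' j)) * v j =
      A * ((∑ i, u i * e i) * ∑ i, e i * v i) + B * ((∑ i, u i * e i) * ∑ i, f' i * v i) +
      G * ((∑ i, u i * f' i) * ∑ i, e i * v i) + K * ((∑ i, u i * f' i) * ∑ i, f' i * v i) := by
    intro u v A B G K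
    simp only [Fin.sum_univ_three]
    ring
  have hfm1 : ∀ i j, fm e f' 1 0 1 i j = 1 * (e i * e j) + 0 * (e i * f' j) + 0 * (f' i * e j) +
      1 * (f' i * f' j) := by
    intro i j
    unfold fm
    ring
  have hcon2 : ∀ u v : Fin 3 → ℝ, (p * a + q * b) * ((∑ i, u i * e i) * ∑ i, e i * v i) +
      (p * b + q * c) * ((∑ i, u i * e i) * ∑ i, f' i * v i) +
      (q * a + r * b) * ((∑ i, u i * f' i) * ∑ i, e i * v i) +
      (q * b + r * c) * ((∑ i, u i * f' i) * ∑ i, f' i * v i) =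
      1 * ((∑ i, u i * e i) * ∑ i, e i * v i) + 0 * ((∑ i, u i * e i) * ∑ i, f' i * v i) +
      0 * ((∑ i, u i * f' i) * ∑ i, e i * v i) + 1 * ((∑ i, u i * f' i) * ∑ i, f' i * v i) := by
    intro u v
    rw [← hgen, ← hgen, hcon u v]
    simp only [hfm1]
  have hfe : ∑ i, f' i * e i = 0 := by
    rw [← hef]
    exact Finset.sum_congr rfl fun i _ => mul_comm _ _
  have r1 := hcon2 e e
  have r2 := hcon2 e f'
  have r3 := hcon2 f' e
  have r4 := hcon2 f' f'
  rw [hee, hef, hfe] at r1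
  rw [hee, hef, hff] at r2
  rw [hee, hff, hfe] at r3
  rw [hef, hff, hfe] at r4
  have q1 : p * a + q * b = 1 := by linarith
  have q2 : p * b + q * c = 0 := by linarith
  have q3 : q * a + r * b = 0 := by linarith
  have q4 : q * b + r * c = 1 := by linarith
  exact ⟨e, f', a, b, c, p, q, r, F, hW, hM, ha, hc, hd, by linear_combination c * q1 - b * q2,
    by linear_combination a * q2 - b * q1, by linear_combination a * q4 - b * q3⟩

theorem lap_lam_Y (hS : IsSlice C lam V f D) (hx : ‖x‖ = 1) (hs : C.U x ≤ s) :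
    lap lam (Y C.H x s) * det2 (Ws C.H s x) = tr3 (Ws C.H s x) := by
  obtain ⟨e, f', a, b, c, p, q, r, F, hW, hM, ha, hc, hd, h1, h2, h3⟩ := lam_frame hS hx hs
  have e1 : lap lam (Y C.H x s) = tr3 (fun i j => H353.hs lam i j (Y C.H x s)) := rfl
  rw [e1, hM, hW, F.tr_fm, F.det_fm, F.tr_fm]
  linear_combination h1 + h3

theorem det2_lam_Y (hS : IsSlice C lam V f D) (hx : ‖x‖ = 1) (hs : C.U x ≤ s) :
    (lap lam (Y C.H x s) ^ 2 - ∑ i, ∑ j, H353.hs lam i j (Y C.H x s) ^ 2) * det2 (Ws C.H s x)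
      = 2 := by
  obtain ⟨e, f', a, b, c, p, q, r, F, hW, hM, ha, hc, hd, h1, h2, h3⟩ := lam_frame hS hx hs
  have e1 : lap lam (Y C.H x s) = tr3 (fun i j => H353.hs lam i j (Y C.H x s)) := rfl
  have e2 : ∑ i, ∑ j, H353.hs lam i j (Y C.H x s) ^ 2 =
      ip3 (fun i j => H353.hs lam i j (Y C.H x s)) (fun i j => H353.hs lam i j (Y C.H x s)) := by
    unfold ip3
    simp only [sq]
  rw [e1, e2, hM, hW, F.tr_fm, F.det_fm, F.ip_fm]
  have hne := hd.ne'
  have h4 : (a * c - b ^ 2) * ((p * r - q ^ 2) * (a * c - b ^ 2)) = (a * c - b ^ 2) * 1 := by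
    linear_combination (r * (a * c - b ^ 2)) * h1 + c * h3 - (q * (a * c - b ^ 2) - b) * h2
  have h5 := mul_left_cancel₀ hne h4
  linear_combination 2 * h5

theorem lap_lam_pos (hS : IsSlice C lam V f D) (hx : ‖x‖ = 1) (hs : C.U x ≤ s) :
    0 < lap lam (Y C.H x s) := by
  have h1 := lap_lam_Y hS hx hs
  have h2 := det2_Ws_pos C hx hs
  have h3 := tr3_Ws_pos C hx hs
  rw [← h1] at h3
  exact (pos_iff_pos_of_mul_pos h3).2 h2

/-- the gradient of `λ` is a unit vector on the exterior -/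
theorem gsq_lam' (hS : IsSlice C lam V f D) (hy : 0 ≤ D.F y) : ∑ i, pd i lam y ^ 2 = 1 := by
  obtain ⟨x, s, hx, hs, rfl⟩ := (mem_iff hS).1 hy
  simp only [pd_lam_Y hS hx hs, sq]
  exact sum_xx hx

/-- the gradient of `λ` is a unit vector near interior points -/
theorem gsq_lam (hS : IsSlice C lam V f D) (hy : 0 < D.F y) :
    ∀ᶠ z in 𝓝 y, ∑ i, pd i lam z ^ 2 = 1 := by
  have h1 : ∀ᶠ z in 𝓝 y, 0 < D.F z :=
    (D.dom.1.continuous.continuousAt).eventually (lt_mem_nhds hy)
  filter_upwards [h1] with z hz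
  exact gsq_lam' hS hz.le

end Vale.Agent.P366.KS
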