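import Vale.Agent.P366.H222.X0d
import Vale.Agent.P366.H353.G

/-! Assembly, part 1: continuity on the sphere, the chain of inequalities. -/

open MeasureTheory Metric Filter Topology Set
open scoped ContDiff ENNReal

noncomputable section
namespace Vale.Agent.P366.KS

open Vale.Agent.P366 (pd E)
open Vale.Agent.P366.H353

variable {C : Cone} {lam f : E 3 → ℝ} {V : E 4 → ℝ} {D : Stmt.Exterior 3} {x y z : E 3} {s t : ℝ}

/-! ### continuity -/

theorem Y_comp (C : Cone) {r : E 3 → ℝ} (hr : Sm r) (hz : z ≠ 0) :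
    ContDiffAt ℝ ∞ (fun z => Y C.H z (r z)) z := by
  have h : ContDiffAt ℝ ∞ (fun z : E 3 => (WithLp.toLp 2 fun i => pd i C.H z + r z * z i : E 3))
      z := by
    rw [contDiffAt_piLp]
    intro i
    exact ((C.smH.pd i) z hz).add ((hr z hz).mul (Sm.coord i z hz))
  exact h

theorem pt_comp {τ : E 3 → ℝ} {Z : E 3 → E 3} (hτ : ContDiffAt ℝ ∞ τ z)
    (hZ : ContDiffAt ℝ ∞ Z z) : ContDiffAt ℝ ∞ (fun z => pt (τ z) (Z z)) z := by
  have h : ContDiffAt ℝ ∞ (fun z : E 3 => (WithLp.toLp 2 (Fin.cons (τ z) fun i => Z z i) : E 4))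
      z := by
    rw [contDiffAt_piLp]
    intro a
    refine Fin.cases ?_ (fun i => ?_) a
    · exact hτ
    · exact (contDiff_piLp_apply (p := 2) (i := i)).contDiffAt.comp z hZ
  exact h

theorem V_comp_cont (hV : ∀ p ∈ Region lam f D, ContDiffAt ℝ ∞ V p) {r τ : E 3 → ℝ} (hr : Sm r)
    (hτ : Sm τ) (h : ∀ x : E 3, ‖x‖ = 1 → pt (τ x) (Y C.H x (r x)) ∈ Region lam f D) :
    ContinuousOn (fun x => V (pt (τ x) (Y C.H x (r x)))) (sphere (0 : E 3) 1) := by
  intro x hx
  have hx1 : ‖x‖ = 1 := by simpa using hx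
  have hx0 := ne_zero_of_one hx1
  exact (ContinuousAt.comp (f := fun x => pt (τ x) (Y C.H x (r x))) (x := x)
    (hV _ (h x hx1)).continuousAt
    (pt_comp (hτ x hx0) (Y_comp C hr hx0)).continuousAt).continuousWithinAt

theorem Sm.prx (i j : Fin 3) : Sm fun x : E 3 => pr x i j :=
  (Sm.const (kd i j)).sub ((Sm.coord i).mul (Sm.coord j))

theorem Ws_sm (C : Cone) {r : E 3 → ℝ} (hr : Sm r) (i j : Fin 3) :
    Sm fun x => Ws C.H (r x) x i j :=
  (C.smH.hs i j).add (hr.mul (Sm.prx i j))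

theorem tr3_Ws_cont (C : Cone) {r : E 3 → ℝ} (hr : Sm r) :
    ContinuousOn (fun x => tr3 (Ws C.H (r x) x)) (sphere (0 : E 3) 1) :=
  (Sm.sum _ fun i => Ws_sm C hr i i : Sm fun x => tr3 (Ws C.H (r x) x)).contOn

theorem Ws_U (C : Cone) (x : E 3) : Ws C.H (C.U x) x = C.toDat.W x := by
  funext i j
  rw [Ws_eq]
  ring

theorem dt_eq (C : Cone) (x : E 3) : C.dt x = det2 (Ws C.H (C.U x) x) := by
  rw [Ws_U]
  rfl

theorem dt_cont (C : Cone) : ContinuousOn C.dt (sphere (0 : E 3) 1) := by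
  have h : Sm fun x => det2 (C.toDat.W x) := by
    have hW : ∀ i j, Sm fun x => C.toDat.W x i j := fun i j =>
      (C.smH.hs i j).add (C.smU.mul (Sm.prx i j))
    have h1 : Sm fun x => ((∑ i, C.toDat.W x i i) ^ 2 -
        ∑ i, ∑ j, C.toDat.W x i j * C.toDat.W x i j) * 2⁻¹ :=
      (((Sm.sum _ fun i => hW i i).pow 2).sub
        (Sm.sum _ fun i => Sm.sum _ fun j => (hW i j).mul (hW i j))).mul (Sm.const 2⁻¹)
    exact h1.congr fun z _ => by rw [det2, tr3, ip3, div_eq_mul_inv]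
  exact h.contOn

/-- continuity along the boundary of functions of `y` -/
theorem comp_YU_cont (hS : IsSlice C lam V f D) {g : E 3 → ℝ}
    (hg : ∀ y, 0 ≤ D.F y → ContinuousAt g y) :
    ContinuousOn (fun x => g (Y C.H x (C.U x))) (sphere (0 : E 3) 1) := by
  intro x hx
  have hx1 : ‖x‖ = 1 := by simpa using hx
  have hx0 := ne_zero_of_one hx1
  exact (ContinuousAt.comp (f := fun x => Y C.H x (C.U x)) (x := x)
    (hg _ (mem_Y hS hx1 le_rfl)) (Y_comp C C.smU hx0).continuousAt).continuousWithinAt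

theorem dL_contAt (hS : IsSlice C lam V f D) (hy : 0 ≤ D.F y) : ContinuousAt (dL lam f) y := by
  unfold dL
  exact tendsto_finsetSum _ fun i _ =>
    (pd_contAt (hS.smL y hy) i).mul (pd_contAt (hS.smf y hy) i)

theorem bv_contAt (hS : IsSlice C lam V f D) (hy : 0 ≤ D.F y) (i : Fin 3) :
    ContinuousAt (bv lam f i) y := by
  unfold bv
  refine ContinuousAt.div ?_ (continuousAt_const.add (dL_contAt hS hy)) (dL_pos hS hy).ne'
  exact ((pd_contAt (hS.smf y hy) i).sub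
    ((dL_contAt hS hy).mul (pd_contAt (hS.smL y hy) i))).neg

theorem thl_contAt (hS : IsSlice C lam V f D) (hy : 0 ≤ D.F y) : ContinuousAt (thl lam f) y := by
  have hl := fun i => pd_contAt (hS.smL y hy) i
  have hf := fun i => pd_contAt (hS.smf y hy) i
  have hh := fun i j => hs_contAt (hS.smf y hy) i j
  have hb := fun i => bv_contAt hS hy i
  have hd := dL_contAt hS hy
  have hne := (dL_pos hS hy).ne'
  have hlap : ContinuousAt (lap lam) y :=
    tendsto_finsetSum _ fun i _ => hs_contAt (hS.smL y hy) i i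
  unfold thl
  refine ContinuousAt.add ?_ (ContinuousAt.mul ?_ (ContinuousAt.add (ContinuousAt.add ?_ ?_) ?_))
  · exact (hlap.mul (continuousAt_const.sub (tendsto_finsetSum _ fun i _ => (hf i).pow 2))).div
      ((continuousAt_const.add hd).pow 2) (pow_ne_zero 2 hne)
  · exact continuousAt_const.div (continuousAt_const.add hd) hne
  · refine tendsto_finsetSum _ fun i _ => tendsto_finsetSum _ fun j _ => (hh i j).mul ?_
    unfold pr
    exact continuousAt_const.sub ((hl i).mul (hl j))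
  · exact continuousAt_const.mul (tendsto_finsetSum _ fun i _ => tendsto_finsetSum _ fun j _ =>
      ((hh i j).mul (hb i)).mul (hl j))
  · exact (tendsto_finsetSum _ fun i _ => (hb i).pow 2).mul
      (tendsto_finsetSum _ fun i _ => tendsto_finsetSum _ fun j _ =>
        ((hh i j).mul (hl i)).mul (hl j))

/-- an upper bound of `U` on the sphere -/
theorem exists_U_le (C : Cone) : ∃ L0 : ℝ, ∀ x : E 3, ‖x‖ = 1 → C.U x ≤ L0 := by
  obtain ⟨L0, hL0⟩ := (isCompact_sphere (0 : E 3) 1).bddAbove_image C.smU.contOn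
  exact ⟨L0, fun x hx => hL0 ⟨x, by simpa using hx, rfl⟩⟩

/-! ### positivity of `Phi` -/

theorem Phi_pos (C : Cone) (hx : ‖x‖ = 1) : 0 < C.toDat.Phi x := by
  obtain ⟨e, f', a, b, c, F, hW, ha, hc, hd⟩ := Ws_frame C hx le_rfl
  rw [Ws_U] at hW
  have hA : C.toDat.A x = fm e f' c (-b) a := by
    funext i j
    unfold Dat.A
    rw [hW, F.tr_fm, F.pr_eq]
    unfold fm
    ring
  have hdt : C.toDat.dt x = a * c - b ^ 2 := by
    unfold Dat.dt
    rw [hW, F.det_fm]
  unfold Dat.Phi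
  rw [hW, F.tr_fm, hA, hdt, Fr.qf_fm]
  set p := ∑ i, e i * C.toDat.gU x i
  set q := ∑ i, f' i * C.toDat.gU x i
  have h1 : 0 ≤ c * (p * p) + -b * (p * q + q * p) + a * (q * q) := by
    have h2 : 0 ≤ c * (c * (p * p) + -b * (p * q + q * p) + a * (q * q)) := by
      nlinarith [sq_nonneg (c * p - b * q), mul_nonneg hd.le (sq_nonneg q)]
    exact (mul_nonneg_iff_of_pos_left hc).1 h2
  have h3 := div_nonneg h1 hd.le
  linarith

/-! ### the chain -/

theorem chain (hS : IsSlice C lam V f D)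
    (hV : ∀ p ∈ Region lam f D, ContDiffAt ℝ ∞ V p)
    (h2 : ∀ x : E 3, ‖x‖ = 1 → thl lam f (Y C.H x (C.U x)) ≤
      V (pt (- C.U x) (Y C.H x (C.U x))) * lap lam (Y C.H x (C.U x)))
    (h3 : S2 C.Phi ≤ S2 (fun x => thl lam f (Y C.H x (C.U x)) * C.dt x))
    (h4s : ∀ x : E 3, ‖x‖ = 1 → ∀ s s' : ℝ, C.U x ≤ s → s ≤ s' →
      V (pt (-s) (Y C.H x s)) * tr3 (Ws C.H s x) ≤
        V (pt (-s') (Y C.H x s')) * tr3 (Ws C.H s' x))
    (h4v : ∃ L0 : ℝ, ∀ L, L0 ≤ L → S2 (fun x => V (pt (-L) (Y C.H x L)) * tr3 (Ws C.H L x)) ≤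
      S2 (fun x => V (pt 0 (Y C.H x L)) * tr3 (Ws C.H L x)))
    {m : ℝ}
    (h5 : Tendsto (fun L => S2 (fun x => V (pt 0 (Y C.H x L)) * tr3 (Ws C.H L x))) atTop
      (𝓝 (16 * Real.pi * m))) : S2 C.Phi ≤ 16 * Real.pi * m := by
  obtain ⟨L0, hL0⟩ := h4v
  obtain ⟨L1, hL1⟩ := exists_U_le C
  refine ge_of_tendsto h5 ?_
  filter_upwards [eventually_ge_atTop (max L0 L1)] with L hL
  have hLL0 : L0 ≤ L := (le_max_left _ _).trans hL
  have hLL1 : L1 ≤ L := (le_max_right _ _).trans hL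
  refine h3.trans (le_trans ?_ (hL0 L hLL0))
  have hnegU : Sm fun x => - C.U x := C.smU.neg
  have hcV1 : ContinuousOn (fun x => V (pt (- C.U x) (Y C.H x (C.U x)))) (sphere (0 : E 3) 1) :=
    V_comp_cont (C := C) hV C.smU hnegU fun x hx =>
      mem_region' hS hx le_rfl le_rfl (by rw [(f_bdr hS hx).1])
  have hcV2 : ContinuousOn (fun x => V (pt (-L) (Y C.H x L))) (sphere (0 : E 3) 1) :=
    V_comp_cont (C := C) hV (Sm.const L) (Sm.const (-L)) fun x hx => by
      have hU : C.U x ≤ L := (hL1 x hx).trans hLL1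
      refine mem_region' hS hx hU le_rfl ?_
      have := f_add_nonneg hS hx hU
      linarith
  have hc1 : ContinuousOn (fun x => thl lam f (Y C.H x (C.U x)) * C.dt x) (sphere (0 : E 3) 1) :=
    (comp_YU_cont hS fun y hy => thl_contAt hS hy).mul (dt_cont C)
  have hc2 : ContinuousOn (fun x => V (pt (-L) (Y C.H x L)) * tr3 (Ws C.H L x))
      (sphere (0 : E 3) 1) := hcV2.mul (tr3_Ws_cont C (Sm.const L))
  refine S2_mono hc1 hc2 fun x hx => ?_
  refine le_trans ?_ (h4s x hx (C.U x) L le_rfl ((hL1 x hx).trans hLL1))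
  have hdt : 0 < C.dt x := dt_pos C.toDat hx
  have e1 := lap_lam_Y hS hx le_rfl
  rw [← e1, ← mul_assoc, ← dt_eq]
  exact mul_le_mul_of_nonneg_right (h2 x hx) hdt.le

end Vale.Agent.P366.KS
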