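import Vale.Agent.P366.H222.X7a

/-! Assembly, part 2: the final inequality from the leaves. -/

open MeasureTheory Metric Filter Topology Set
open scoped ContDiff ENNReal

noncomputable section
namespace Vale.Agent.P366.KS

open Vale.Agent.P366 (pd E)
open Vale.Agent.P366.H353

variable {C : Cone} {lam f : E 3 → ℝ} {V : E 4 → ℝ} {D : Stmt.Exterior 3}

theorem omega_three : Stmt.omega 3 = 4 * Real.pi := by
  rw [Vale.Agent.P366.omega_eq]
  have h := S2_const 1
  unfold S2 at h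
  rw [integral_const, smul_eq_mul, mul_one, mul_one] at h
  exact h

theorem S2_dt_pos (C : Cone) : 0 < S2 C.dt := by
  obtain ⟨e, he⟩ : ∃ x : E 3, ‖x‖ = 1 := ⟨EuclideanSpace.single 0 1, by simp⟩
  obtain ⟨x0, hx0, hmin⟩ := (isCompact_sphere (0 : E 3) 1).exists_isMinOn
    ⟨e, by simpa using he⟩ (dt_cont C)
  have hx1 : ‖x0‖ = 1 := by simpa using hx0
  have hc : 0 < C.dt x0 := dt_pos C.toDat hx1
  have h1 : S2 (fun _ => C.dt x0) ≤ S2 C.dt :=
    S2_mono continuousOn_const (dt_cont C) fun x hx => hmin (by simpa using hx)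
  rw [S2_const] at h1
  have := Real.pi_pos
  have : 0 < 4 * Real.pi * C.dt x0 := by positivity
  linarith

theorem final_of {m : ℝ} (h6 : D.Amin ≤ ENNReal.ofReal (S2 C.dt))
    (hPhi : S2 C.Phi ≤ 16 * Real.pi * m) :
    D.Amin ≠ ⊤ ∧ 0 < m ∧ √(D.Amin.toReal / Stmt.omega 3) / 2 ≤ m := by
  have hpi := Real.pi_pos
  have hcore := core C.toDat
  have hA := S2_dt_pos C
  have hPhi0 : 0 ≤ S2 C.toDat.Phi := S2_nonneg fun x hx => (Phi_pos C hx).le
  have hm : 0 < m := by
    by_contra hneg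
    have h1 : 16 * Real.pi * m ≤ 0 :=
      mul_nonpos_of_nonneg_of_nonpos (by positivity) (not_lt.1 hneg)
    have h2 : S2 C.toDat.Phi = 0 := le_antisymm (hPhi.trans h1) hPhi0
    rw [h2] at hcore
    have : 0 < 16 * Real.pi * S2 C.dt := by positivity
    nlinarith
  have htop : D.Amin ≠ ⊤ := ne_top_of_le_ne_top ENNReal.ofReal_ne_top h6
  have hle : D.Amin.toReal ≤ S2 C.dt := by
    have := (ENNReal.toReal_le_toReal htop ENNReal.ofReal_ne_top).2 h6
    rwa [ENNReal.toReal_ofReal hA.le] at this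
  refine ⟨htop, hm, ?_⟩
  have hsq : S2 C.toDat.Phi ^ 2 ≤ (16 * Real.pi * m) ^ 2 := by
    exact pow_le_pow_left₀ hPhi0 hPhi 2
  have h1 : S2 C.dt ≤ 16 * Real.pi * m ^ 2 := by
    have h2 : 16 * Real.pi * S2 C.dt ≤ 16 * Real.pi * (16 * Real.pi * m ^ 2) := by
      calc 16 * Real.pi * S2 C.dt ≤ S2 C.toDat.Phi ^ 2 := hcore
        _ ≤ (16 * Real.pi * m) ^ 2 := hsq
        _ = 16 * Real.pi * (16 * Real.pi * m ^ 2) := by ring
    exact le_of_mul_le_mul_left h2 (by positivity)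
  have h3 : D.Amin.toReal / Stmt.omega 3 ≤ (2 * m) ^ 2 := by
    rw [omega_three, div_le_iff₀ (by positivity)]
    nlinarith
  have h4 : √(D.Amin.toReal / Stmt.omega 3) ≤ 2 * m := by
    rw [show 2 * m = √((2 * m) ^ 2) from (Real.sqrt_sq (by linarith)).symm]
    exact Real.sqrt_le_sqrt h3
  linarith

end Vale.Agent.P366.KS
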